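import Vale.Agent.P235.XC.Defs
import Vale.Agent.P235.H452.Geo

/-! # P235, line XC, row [X4] in the letters of XC/Defs: from a root of the block `k` to the block
`l`, off three positions (helper360; the proof is helper456's proof of `X4Grid`) -/

set_option autoImplicit false

namespace Vale.Agent.P235.XC.H360

open SimpleGraph Vale.Agent.P235.H134 Vale.Agent.P235.H56 Vale.Agent.P235.H141
open Vale.Agent.P235.H452 (Rch hor ver adj_hor adj_ver)

/-- three points do not meet four disjoint sets -/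
theorem pick4 {α : Type} [Finite α] (T : Set α) (hT : T.ncard ≤ 3) (g : Fin 4 → α → Prop)
    (hg : ∀ x ∈ T, ∀ i j, g i x → g j x → i = j) : ∃ i, ∀ x ∈ T, ¬ g i x := by
  by_contra hcon
  push Not at hcon
  choose x hx hgx using hcon
  have hinj : Function.Injective x := fun i j h => hg (x i) (hx i) i j (hgx i) (h ▸ hgx j)
  have h1 : (x '' Set.univ).ncard = 4 := by
    rw [Set.ncard_image_of_injective _ hinj, Set.ncard_univ, Nat.card_eq_fintype_card,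
      Fintype.card_fin]
  have h2 : (x '' Set.univ).ncard ≤ T.ncard := by
    refine Set.ncard_le_ncard ?_ (Set.toFinite T)
    rintro _ ⟨i, -, rfl⟩
    exact hx i
  omega

/-- one of four consecutive rows or columns is free -/
theorem pick {n : ℕ} (T : Set (Fin n × Fin n)) (hT : T.ncard ≤ 3) (f : Fin n × Fin n → Fin n)
    (a : ℕ) (ha : a + 4 ≤ n) : ∃ c : Fin n, a ≤ c.val ∧ c.val < a + 4 ∧ ∀ x ∈ T, f x ≠ c := by
  obtain ⟨i, hi⟩ := pick4 T hT (fun i x => (f x).val = a + i.val)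
    (fun x _ i j h1 h2 => Fin.ext (by omega))
  have h4 := i.isLt
  refine ⟨⟨a + i.val, by omega⟩, by simp, by simp only; omega, fun x hx h => hi x hx ?_⟩
  rw [h]

theorem bs_end (r : ℕ) (k : Fin 64) : bs r k.val + (r + 2) + 5 ≤ RX r := by
  have h : k.val * (r + 6) ≤ 63 * (r + 6) := Nat.mul_le_mul_right _ (by have := k.isLt; omega)
  unfold bs RX
  omega

theorem bs_ge (r k : ℕ) : 5 ≤ bs r k := by unfold bs; omega

theorem sep : SepStmt := by
  intro r hr k l hkl T hT hTl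
  classical
  have hk0 := bs_ge r k.val
  have hl0 := bs_ge r l.val
  have hkn := bs_end r k
  have hln := bs_end r l
  have hsep : bs r k.val + (r + 2) ≤ bs r l.val ∨ bs r l.val + (r + 2) ≤ bs r k.val := by
    have hne : k.val ≠ l.val := fun h => hkl (Fin.ext h)
    rcases lt_or_gt_of_ne hne with h | h
    · left
      have : (k.val + 1) * (r + 6) ≤ l.val * (r + 6) := Nat.mul_le_mul_right _ h
      unfold bs
      nlinarith
    · right
      have : (l.val + 1) * (r + 6) ≤ k.val * (r + 6) := Nat.mul_le_mul_right _ h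
      unfold bs
      nlinarith
  obtain ⟨p, hp⟩ : ∃ p, p = bs r k.val := ⟨_, rfl⟩
  obtain ⟨q, hq⟩ : ∃ q, q = bs r l.val := ⟨_, rfl⟩
  have mk : ∀ x : Pos r, x ∈ blkX r k ↔ p ≤ x.1.val ∧ x.1.val < p + (r + 2) ∧ p ≤ x.2.val ∧
      x.2.val < p + (r + 2) := by
    intro x; rw [hp]; exact Iff.rfl
  have ml : ∀ x : Pos r, x ∈ blkX r l ↔ q ≤ x.1.val ∧ x.1.val < q + (r + 2) ∧ q ≤ x.2.val ∧
      x.2.val < q + (r + 2) := by
    intro x; rw [hq]; exact Iff.rfl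
  have mi : ∀ (i : Fin 4) (x : Pos r), x ∈ linX r k i ↔
      (i = 0 ∧ x.1.val = p + 1 ∧ p + (r + 2) ≤ x.2.val) ∨
      (i = 1 ∧ p + (r + 2) ≤ x.1.val ∧ x.2.val = p + 1) ∨
      (i = 2 ∧ x.1.val = p + 1 ∧ x.2.val < p) ∨
      (i = 3 ∧ x.1.val < p ∧ x.2.val = p + 1) := by
    intro i x; rw [hp]; exact Iff.rfl
  have mr : ∀ (i : Fin 4) (x : Pos r), rootX r k i x ↔
      (i = 0 ∧ x.1.val = p + 1 ∧ x.2.val = p + (r + 2)) ∨
      (i = 1 ∧ x.1.val = p + (r + 2) ∧ x.2.val = p + 1) ∨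
      (i = 2 ∧ x.1.val = p + 1 ∧ x.2.val + 1 = p) ∨
      (i = 3 ∧ x.1.val + 1 = p ∧ x.2.val = p + 1) := by
    intro i x; rw [hp]; exact Iff.rfl
  rw [← hp] at hk0 hkn hsep
  rw [← hq] at hl0 hln hsep
  -- clear rows and columns
  let cr : Fin (RX r) → Prop := fun ρ =>
    (∀ x ∈ T, x.1 ≠ ρ) ∧ (ρ.val < p ∨ p + (r + 2) ≤ ρ.val)
  let cc : Fin (RX r) → Prop := fun c =>
    (∀ x ∈ T, x.2 ≠ c) ∧ (c.val < p ∨ p + (r + 2) ≤ c.val)
  let Z0 : Set (Fin (RX r) × Fin (RX r)) := {x | cr x.1 ∨ cc x.2}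
  obtain ⟨ρ0, hρ0, hρ0', hρT⟩ := pick T hT Prod.fst 0 (by omega)
  obtain ⟨c0, hc0, hc0', hcT⟩ := pick T hT Prod.snd 0 (by omega)
  have hρ : cr ρ0 := ⟨hρT, Or.inl (by omega)⟩
  have hc : cc c0 := ⟨hcT, Or.inl (by omega)⟩
  obtain ⟨ρ1, hρ1, hρ1', hρ1T⟩ := pick T hT Prod.fst (RX r - 4) (by omega)
  have hρe : cr ρ1 := ⟨hρ1T, Or.inr (by omega)⟩
  obtain ⟨c1, hc1, hc1', hc1T⟩ := pick T hT Prod.snd (RX r - 4) (by omega)
  have hce : cc c1 := ⟨hc1T, Or.inr (by omega)⟩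
  have hZT : Disjoint Z0 T := by
    rw [Set.disjoint_left]
    rintro x (h | h) hx
    · exact h.1 x hx rfl
    · exact h.1 x hx rfl
  have hZk : Disjoint Z0 (blkX r k) := by
    rw [Set.disjoint_left]
    rintro x h hx
    obtain ⟨h1, h2, h3, h4⟩ := (mk x).1 hx
    rcases h with h | h
    · have := h.2
      omega
    · have := h.2
      omega
  -- everything reaches the base point
  have base : ∀ Z : Set (Fin (RX r) × Fin (RX r)), Z0 ⊆ Z → ∀ x : Fin (RX r) × Fin (RX r),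
      cr x.1 ∨ cc x.2 → Rch Z x (ρ0, c0) := by
    rintro Z hZ ⟨a, b⟩ (h | h)
    · refine (hor Z a 0 (RX r) (fun t _ _ => hZ (Or.inl h)) b c0 (Nat.zero_le _) b.isLt.le
        (Nat.zero_le _) c0.isLt.le).trans ?_
      exact ver Z c0 0 (RX r) (fun t _ _ => hZ (Or.inr hc)) a ρ0 (Nat.zero_le _) a.isLt.le
        (Nat.zero_le _) ρ0.isLt.le
    · refine (ver Z b 0 (RX r) (fun t _ _ => hZ (Or.inr h)) a ρ0 (Nat.zero_le _) a.isLt.le
        (Nat.zero_le _) ρ0.isLt.le).trans ?_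
      exact hor Z ρ0 0 (RX r) (fun t _ _ => hZ (Or.inl hρ)) b c0 (Nat.zero_le _) b.isLt.le
        (Nat.zero_le _) c0.isLt.le
  -- a free row or a free column of the block `l`
  have hfree : (∃ ρ : Fin (RX r), q ≤ ρ.val ∧ ρ.val < q + (r + 2) ∧ cr ρ) ∨
      ∃ c : Fin (RX r), q ≤ c.val ∧ c.val < q + (r + 2) ∧ cc c := by
    obtain ⟨i, hi⟩ := pick4 T hT (fun i x => (i.val < 3 ∧ x.1.val = q + i.val) ∨
      (i.val = 3 ∧ x.2.val = q)) (by
        intro x hx i j h1 h2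
        have hxl : ¬ (q ≤ x.1.val ∧ x.1.val < q + (r + 2) ∧
            q ≤ x.2.val ∧ x.2.val < q + (r + 2)) :=
          fun h => Set.disjoint_left.1 hTl hx ((ml x).2 h)
        have hi4 := i.isLt
        have hj4 := j.isLt
        apply Fin.ext
        omega)
    rcases lt_or_ge i.val 3 with h3 | h3
    · left
      refine ⟨⟨q + i.val, by omega⟩, by simp, by simp only; omega, ?_, ?_⟩
      · intro x hx h
        exact hi x hx (Or.inl ⟨h3, by rw [h]⟩)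
      · simp only
        omega
    · right
      have hi4 := i.isLt
      refine ⟨⟨q, by omega⟩, by simp, by simp only; omega, ?_, ?_⟩
      · intro x hx h
        exact hi x hx (Or.inr ⟨by omega, by rw [h]⟩)
      · simp only
        omega
  -- the free line
  obtain ⟨i, hi⟩ := pick4 T hT (fun i x => x ∈ linX r k i) (by
    intro x hx i j h1 h2
    rcases (mi i x).1 h1 with ⟨hi, h1, h1'⟩ | ⟨hi, h1, h1'⟩ | ⟨hi, h1, h1'⟩ | ⟨hi, h1, h1'⟩ <;>
    rcases (mi j x).1 h2 with ⟨hj, h2, h2'⟩ | ⟨hj, h2, h2'⟩ | ⟨hj, h2, h2'⟩ | ⟨hj, h2, h2'⟩ <;>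
    first
      | exact hi.trans hj.symm
      | (exfalso; omega))
  have hlT : Disjoint (linX r k i) T := by
    rw [Set.disjoint_left]
    exact fun x h hx => hi x hx h
  have hlk2 : Disjoint (linX r k i) (blkX r k) := by
    rw [Set.disjoint_left]
    rintro x h hx
    obtain ⟨h1, h2, h3, h4⟩ := (mk x).1 hx
    rcases (mi i x).1 h with ⟨-, h, h'⟩ | ⟨-, h, h'⟩ | ⟨-, h, h'⟩ | ⟨-, h, h'⟩ <;> omega
  have hex : ∃ x : Pos r, rootX r k i x := by
    have h0 : i = 0 ∨ i = 1 ∨ i = 2 ∨ i = 3 := by fin_cases i <;> simp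
    rcases h0 with h0 | h0 | h0 | h0
    · exact ⟨(⟨p + 1, by omega⟩, ⟨p + (r + 2), by omega⟩), (mr _ _).2 (Or.inl ⟨h0, rfl, rfl⟩)⟩
    · exact ⟨(⟨p + (r + 2), by omega⟩, ⟨p + 1, by omega⟩),
        (mr _ _).2 (Or.inr (Or.inl ⟨h0, rfl, rfl⟩))⟩
    · exact ⟨(⟨p + 1, by omega⟩, ⟨p - 1, by omega⟩),
        (mr _ _).2 (Or.inr (Or.inr (Or.inl ⟨h0, rfl, by simp only; omega⟩)))⟩
    · exact ⟨(⟨p - 1, by omega⟩, ⟨p + 1, by omega⟩),
        (mr _ _).2 (Or.inr (Or.inr (Or.inr ⟨h0, by simp only; omega, rfl⟩)))⟩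
  have hroot : ∀ x, rootX r k i x → x ∈ linX r k i := by
    intro x hx
    rw [mi]
    rcases (mr i x).1 hx with ⟨h0, h, h'⟩ | ⟨h0, h, h'⟩ | ⟨h0, h, h'⟩ | ⟨h0, h, h'⟩
    · exact Or.inl ⟨h0, h, by omega⟩
    · exact Or.inr (Or.inl ⟨h0, by omega, h'⟩)
    · exact Or.inr (Or.inr (Or.inl ⟨h0, h, by omega⟩))
    · exact Or.inr (Or.inr (Or.inr ⟨h0, by omega, h'⟩))
  have hline : ∀ Z : Set (Fin (RX r) × Fin (RX r)), Z0 ⊆ Z → linX r k i ⊆ Z → ∀ x ∈ linX r k i,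
      Rch Z x (ρ0, c0) := by
    rintro Z hZ hPZ ⟨a, b⟩ hx
    have hq : ∀ a b : Fin (RX r), ((i = 0 ∧ a.val = p + 1 ∧ p + (r + 2) ≤ b.val) ∨
      (i = 1 ∧ p + (r + 2) ≤ a.val ∧ b.val = p + 1) ∨
      (i = 2 ∧ a.val = p + 1 ∧ b.val < p) ∨
      (i = 3 ∧ a.val < p ∧ b.val = p + 1)) → (a, b) ∈ Z := fun a b h => hPZ ((mi i (a, b)).2 h)
    rcases (mi i _).1 hx with ⟨hi0, h, h'⟩ | ⟨hi0, h, h'⟩ | ⟨hi0, h, h'⟩ | ⟨hi0, h, h'⟩
    · simp only at h h'
      refine (hor Z a (p + (r + 2)) (RX r) (fun t ht _ => hq _ _ (Or.inl ⟨hi0, h, ht⟩)) b c1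
        h' b.isLt.le (by omega) c1.isLt.le).trans (base Z hZ _ (Or.inr hce))
    · simp only at h h'
      refine (ver Z b (p + (r + 2)) (RX r) (fun t ht _ => hq _ _ (Or.inr (Or.inl ⟨hi0, ht, h'⟩)))
        a ρ1 h a.isLt.le (by omega) ρ1.isLt.le).trans (base Z hZ _ (Or.inl hρe))
    · simp only at h h'
      refine (hor Z a 0 (p - 1) (fun t _ ht => hq _ _ (Or.inr (Or.inr (Or.inl
        ⟨hi0, h, by omega⟩)))) b c0 (Nat.zero_le _) (by omega) (Nat.zero_le _) (by omega)).trans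
        (base Z hZ _ (Or.inr hc))
    · simp only at h h'
      refine (ver Z b 0 (p - 1) (fun t _ ht => hq _ _ (Or.inr (Or.inr (Or.inr
        ⟨hi0, by omega, h'⟩)))) a ρ0 (Nat.zero_le _) (by omega) (Nat.zero_le _) (by omega)).trans
        (base Z hZ _ (Or.inl hρ))
  -- a clear cell of the block `l`
  have hcell : ∃ x : Pos r, x ∈ blkX r l ∧ (cr x.1 ∨ cc x.2) := by
    rcases hfree with ⟨ρl, hρl, hρl', hρlc⟩ | ⟨cl, hcl, hcl', hclc⟩
    · exact ⟨(ρl, ⟨q, by omega⟩), (ml _).2 ⟨hρl, hρl', le_rfl, by simp only; omega⟩, Or.inl hρlc⟩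
    · exact ⟨(⟨q, by omega⟩, cl), (ml _).2 ⟨le_rfl, by simp only; omega, hcl, hcl'⟩, Or.inr hclc⟩
  obtain ⟨y, hyl, hyc⟩ := hcell
  refine ⟨i, Z0 ∪ linX r k i, ?_, fun x hx => Or.inr (hroot x hx), hex, ⟨y, Or.inl hyc, hyl⟩,
    ?_, ?_⟩
  · have hb : (ρ0, c0) ∈ Z0 ∪ linX r k i := Or.inl (Or.inl hρ)
    have hall : ∀ x ∈ Z0 ∪ linX r k i, Rch (Z0 ∪ linX r k i) x (ρ0, c0) := by
      rintro x (h | h)
      · exact base _ (fun y hy => Or.inl hy) x h
      · exact hline _ (fun y hy => Or.inl hy) (fun y hy => Or.inr hy) x h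
    have : Nonempty (Z0 ∪ linX r k i : Set (Fin (RX r) × Fin (RX r))) := ⟨⟨_, hb⟩⟩
    refine Connected.mk fun x y => ?_
    obtain ⟨_, _, h1⟩ := hall x.1 x.2
    obtain ⟨_, _, h2⟩ := hall y.1 y.2
    exact h1.trans h2.symm
  · rw [Set.disjoint_union_left]
    exact ⟨hZk, hlk2⟩
  · rw [Set.disjoint_union_left]
    exact ⟨hZT, hlT⟩

end Vale.Agent.P235.XC.H360
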